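import Vale.Agent.P365.Z0.K937.K2
import Vale.Agent.P365.Stat.T1

/-!
# P365 Z0, Z3a: (K1): one kick at a good site `w` makes the local loss at `z` large
-/

set_option autoImplicit false
set_option linter.all false

namespace P365Z.K937

open P365L P365T1 MeasureTheory Function Set P365L.Z0.H662
open P365L.Stat (eta Ls)
open P365O hiding kap
open _root_.Complex hiding eta
open scoped ENNReal ComplexConjugate

variable {ι : Type*} [Fintype ι] [DecidableEq ι] {A : Matrix ι ι ℝ} {E : ℝ} {e : ι → ℝ}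
  {a : ι → ℝ}

theorem mm_eq_pw (hA : A.IsSymm) (he : ∀ x, 0 < e x) (v : ι → ℝ) (y : ι) :
    mm A (WV E e v) y = pw A E e v y * ‖Gr A (WV E e v) y y‖ ^ 2 := by
  have hm := mm_pos hA (WV_im_neg (E := E) he v) y
  have h2 := P365L.Stat.im_eq_bet hm
  have h3 : P365L.Stat.bet (Gr A (WV E e v) y y) = pw A E e v y := by
    rw [P365L.Stat.bet, Gr_inv hA he]
    simp
  rw [h3] at h2
  exact h2

/-- the amplitude of `T_zz` on the line of `w` -/
theorem norm_Tx (hA : A.IsSymm) (he : ∀ x, 0 < e x) (v : ι → ℝ) (w z : ι) :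
    ‖Tx A E e a v w z z‖ ^ 2 = KK A (WV E e v) z w * ‖Qm A (WV E e v) a z w‖ ^ 2 /
      mm A (WV E e v) w ^ 2 := by
  have hp := pw_pos (E := E) hA he v w
  have hm := mm_pos hA (WV_im_neg (E := E) he v) w
  have h1 := mm_eq_pw (E := E) hA he v w
  have hg : ‖Gr A (WV E e v) w w‖ ≠ 0 := by
    intro h0
    rw [h0] at h1
    simp at h1
    linarith
  rw [Tx, norm_mul, norm_div, norm_pow, norm_inv, norm_mul, Complex.norm_real, Real.norm_eq_abs,
    abs_of_pos hp, h1, KK, Gr_symm hA w z]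
  field_simp

/-- `T_zz` on the line of `w` -/
theorem Tm_kick_self (hA : A.IsSymm) (he : ∀ x, 0 < e x) (v : ι → ℝ) (w : ι) (x : ℝ) (z : ι) :
    Tm A (WV E e (Vk A E e v w x)) a z z =
      Ta A (WV E e v) a w z z + Tx A E e a v w z z * eta x +
        conj (Tx A E e a v w z z) * conj (eta x) := by
  rw [Tm_kick hA he]
  congr 2
  rw [Ty, Tx]
  simp only [map_mul]
  rw [Gr_symm hA w z]
  ring

/-- a quadratic one of the form `t + q η + conj (q η)` -/
theorem sub_self {X l0 x0 : ℝ} (hX : 0 ≤ X) (hl : 0 < l0) (hl1 : l0 ≤ 1) (h0 : |x0| ≤ X)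
    (t q : ℂ) :
    volume {x : ℝ | x ∈ Jw x0 l0 ∧ ‖t + q * eta x + conj q * conj (eta x)‖ <
      2 * c2 X l0 * ‖q‖} ≤ ENNReal.ofReal (l0 / 8) := by
  refine (measure_mono fun x hx => ?_).trans
    (sublevel' hX hl hl1 h0 (t + I * q - I * conj q) (q + conj q) t)
  obtain ⟨hxJ, hx⟩ := hx
  refine ⟨hxJ, ?_⟩
  have hn := one_add_sq_le hX hl1 h0 hxJ
  have e1 : (t + I * q - I * conj q) + (q + conj q) * x + t * (x : ℂ) ^ 2 =
      ((1 + x ^ 2 : ℝ) : ℂ) * (t + q * eta x + conj q * conj (eta x)) := by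
    have h2 : ((1 + x ^ 2 : ℝ) : ℂ) = ((x : ℂ) - I) * ((x : ℂ) + I) := by
      push_cast
      linear_combination Complex.I_mul_I
    have h3 : ((x : ℂ) - I) * eta x = 1 := by
      rw [eta, mul_one_div, div_self (P365L.Stat.sub_I_ne x)]
    have h4 : ((x : ℂ) + I) * conj (eta x) = 1 := by
      have := congrArg conj h3
      simp only [map_mul, map_sub, Complex.conj_ofReal, Complex.conj_I, map_one,
        sub_neg_eq_add] at this
      exact this
    rw [h2]
    linear_combination (-(q * ((x : ℂ) + I))) * h3 - conj q * ((x : ℂ) - I) * h4 +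
      t * Complex.I_mul_I
  set S : ℝ := ‖t + I * q - I * conj q‖ + ‖q + conj q‖ + ‖t‖ with hS
  have hq : 2 * ‖q‖ ≤ S := by
    have h1 : ‖q + conj q‖ = 2 * |q.re| := by
      rw [Complex.add_conj, Complex.norm_real, Real.norm_eq_abs, abs_mul, abs_two]
    have h2 : 2 * |q.im| ≤ ‖t + I * q - I * conj q‖ + ‖t‖ := by
      have h3 : ((-(2 * q.im) : ℝ) : ℂ) = (t + I * q - I * conj q) - t := by
        have h5 : (t + I * q - I * conj q) - t = I * (q - conj q) := by ring
        rw [h5, Complex.sub_conj]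
        push_cast
        linear_combination (-2 * (q.im : ℂ)) * Complex.I_mul_I
      have h4 : ‖((-(2 * q.im) : ℝ) : ℂ)‖ ≤ ‖t + I * q - I * conj q‖ + ‖t‖ := by
        rw [h3]
        exact norm_sub_le _ _
      rwa [Complex.norm_real, Real.norm_eq_abs, abs_neg, abs_mul, abs_two] at h4
    have h5 := Complex.norm_le_abs_re_add_abs_im q
    linarith
  have hc := cR_pos hX hl
  have h3 : (0 : ℝ) < 1 + x ^ 2 := by positivity
  rw [e1, norm_mul, Complex.norm_real, Real.norm_eq_abs, abs_of_pos h3]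
  have h5 : (1 + x ^ 2) * ‖t + q * eta x + conj q * conj (eta x)‖ ≤
      (X + 2) ^ 2 * ‖t + q * eta x + conj q * conj (eta x)‖ :=
    mul_le_mul_of_nonneg_right hn (norm_nonneg _)
  have h6 : (X + 2) ^ 2 * ‖t + q * eta x + conj q * conj (eta x)‖ <
      (X + 2) ^ 2 * (2 * c2 X l0 * ‖q‖) :=
    mul_lt_mul_of_pos_left hx (by positivity)
  have h7 : (X + 2) ^ 2 * (2 * c2 X l0 * ‖q‖) = cR X l0 * (2 * ‖q‖) := by
    unfold c2
    field_simp
  have h8 := mul_le_mul_of_nonneg_left hq hc.le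
  linarith

/-- constant of (K1) -/
noncomputable def CK1 (X l0 : ℝ) : ℝ := 1 / (4 * c2 X l0 ^ 2)

theorem CK1_pos {X l0 : ℝ} (hX : 0 ≤ X) (hl : 0 < l0) : 0 < CK1 X l0 := by
  have h2 := c2_pos hX hl
  unfold CK1
  positivity

/-- **(K1)**: off a set of measure `l0 / 4` of the window -/
theorem K1 (hA : A.IsSymm) (he : ∀ x, 0 < e x) {X d0 a' l0 : ℝ} (hX : 0 ≤ X) (hl : 0 < l0)
    (hl1 : l0 ≤ 1) {v : ι → ℝ} {z w : ι} (hzw : z ≠ w)
    (gw : Gd A E e X d0 a' v w) (gz : Gd A E e X d0 a' v z) :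
    volume {x : ℝ | x ∈ Jw (xk A E e v w) l0 ∧
      ¬ (P365L.kap A (WV E e v) z w * ‖Qm A (WV E e v) a z w‖ ^ 2 ≤
          CK1 X l0 * (mm A (WV E e v) w * Ls A a z (WV E e (Vk A E e v w x))) ∧
        Gd A E e (KX X l0) (d0 / KX X l0) a' (Vk A E e v w x) z)} ≤
      ENNReal.ofReal (l0 / 4) := by
  have h0 := abs_xk_le hA he gw.tuned
  have hc2 := c2_pos hX hl
  set B1 : Set ℝ := {x : ℝ | x ∈ Jw (xk A E e v w) l0 ∧
    ‖Ta A (WV E e v) a w z z + Tx A E e a v w z z * eta x +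
      conj (Tx A E e a v w z z) * conj (eta x)‖ < 2 * c2 X l0 * ‖Tx A E e a v w z z‖} with hB1
  set B2 : Set ℝ := {x : ℝ | x ∈ Jw (xk A E e v w) l0 ∧
    ¬ Gd A E e (KX X l0) (d0 / KX X l0) a' (Vk A E e v w x) z} with hB2
  have v1 : volume B1 ≤ ENNReal.ofReal (l0 / 8) := sub_self hX hl hl1 h0 _ _
  have v2 : volume B2 ≤ ENNReal.ofReal (l0 / 8) := good_kick hA he hl hl1 hzw gw.tuned hX gz
  have hsub : {x : ℝ | x ∈ Jw (xk A E e v w) l0 ∧
      ¬ (P365L.kap A (WV E e v) z w * ‖Qm A (WV E e v) a z w‖ ^ 2 ≤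
          CK1 X l0 * (mm A (WV E e v) w * Ls A a z (WV E e (Vk A E e v w x))) ∧
        Gd A E e (KX X l0) (d0 / KX X l0) a' (Vk A E e v w x) z)} ⊆ B1 ∪ B2 := by
    rintro x ⟨hxJ, hx⟩
    by_contra hcon
    simp only [mem_union, not_or] at hcon
    obtain ⟨n1, n2⟩ := hcon
    apply hx
    have g2 : Gd A E e (KX X l0) (d0 / KX X l0) a' (Vk A E e v w x) z := by
      by_contra h
      exact n2 ⟨hxJ, h⟩
    refine ⟨?_, g2⟩
    have g1 : 2 * c2 X l0 * ‖Tx A E e a v w z z‖ ≤
        ‖Tm A (WV E e (Vk A E e v w x)) a z z‖ := by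
      rw [Tm_kick_self hA he]
      by_contra h
      exact n1 ⟨hxJ, not_le.1 h⟩
    have hW := WV_im_neg (E := E) he v
    have hWn := WV_im_neg (E := E) he (Vk A E e v w x)
    have mw := mm_pos hA hW w
    have mz := mm_pos hA hW z
    have mz' := mm_pos hA hWn z
    have hK : 0 ≤ KK A (WV E e v) z w := KK_nonneg z w
    have gz' := P365L.Stat.mm_upd_le hA hW w (uk A E e v w x - v w) z
    rw [← WV_Vk] at gz'
    have hT := pow_le_pow_left₀ (by positivity) g1 2
    rw [mul_pow, norm_Tx hA he] at hT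
    have hden : 0 < mm A (WV E e v) z * mm A (WV E e v) w + KK A (WV E e v) z w := by
      have := mul_pos mz mw
      linarith
    have hm2 : mm A (WV E e v) w * mm A (WV E e (Vk A E e v w x)) z ≤
        mm A (WV E e v) z * mm A (WV E e v) w + KK A (WV E e v) z w := by
      calc mm A (WV E e v) w * mm A (WV E e (Vk A E e v w x)) z
          ≤ mm A (WV E e v) w * (mm A (WV E e v) z + KK A (WV E e v) z w /
            mm A (WV E e v) w) := mul_le_mul_of_nonneg_left gz' mw.le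
        _ = _ := by field_simp
    -- final computation
    have h3 : KK A (WV E e v) z w * ‖Qm A (WV E e v) a z w‖ ^ 2 ≤
        CK1 X l0 * mm A (WV E e v) w ^ 2 *
          ‖Tm A (WV E e (Vk A E e v w x)) a z z‖ ^ 2 := by
      have h4 : (2 * c2 X l0) ^ 2 * (KK A (WV E e v) z w * ‖Qm A (WV E e v) a z w‖ ^ 2) ≤
          mm A (WV E e v) w ^ 2 * ‖Tm A (WV E e (Vk A E e v w x)) a z z‖ ^ 2 := by
        rw [← mul_div_assoc, div_le_iff₀ (by positivity)] at hT
        linarith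
      have h5 : CK1 X l0 * (2 * c2 X l0) ^ 2 = 1 := by
        unfold CK1
        field_simp
        norm_num
      have hC := (CK1_pos hX hl).le
      calc KK A (WV E e v) z w * ‖Qm A (WV E e v) a z w‖ ^ 2
          = CK1 X l0 * ((2 * c2 X l0) ^ 2 *
            (KK A (WV E e v) z w * ‖Qm A (WV E e v) a z w‖ ^ 2)) := by
            rw [← mul_assoc, h5, one_mul]
        _ ≤ _ := by
            rw [mul_assoc]
            exact mul_le_mul_of_nonneg_left h4 hC
    have hC := (CK1_pos hX hl).le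
    rw [P365L.kap, Ls, div_mul_eq_mul_div, div_le_iff₀ hden]
    have e1 : CK1 X l0 * (mm A (WV E e v) w * (‖Tm A (WV E e (Vk A E e v w x)) a z z‖ ^ 2 /
        mm A (WV E e (Vk A E e v w x)) z)) *
          (mm A (WV E e v) z * mm A (WV E e v) w + KK A (WV E e v) z w) =
        (CK1 X l0 * mm A (WV E e v) w * ‖Tm A (WV E e (Vk A E e v w x)) a z z‖ ^ 2 /
          mm A (WV E e (Vk A E e v w x)) z) *
          (mm A (WV E e v) z * mm A (WV E e v) w + KK A (WV E e v) z w) := by ring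
    rw [e1]
    refine h3.trans ?_
    calc CK1 X l0 * mm A (WV E e v) w ^ 2 * ‖Tm A (WV E e (Vk A E e v w x)) a z z‖ ^ 2
        = (CK1 X l0 * mm A (WV E e v) w * ‖Tm A (WV E e (Vk A E e v w x)) a z z‖ ^ 2 /
          mm A (WV E e (Vk A E e v w x)) z) *
          (mm A (WV E e v) w * mm A (WV E e (Vk A E e v w x)) z) := by
          field_simp
      _ ≤ _ := mul_le_mul_of_nonneg_left hm2 (by positivity)
  refine (measure_mono hsub).trans ((measure_union_le _ _).trans ?_)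
  refine (add_le_add v1 v2).trans (le_of_eq ?_)
  rw [← ENNReal.ofReal_add (by positivity) (by positivity)]
  congr 1
  ring

end P365Z.K937
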