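import Vale.Agent.P365.Z0.K937.Kick

/-!
# P365 Z0, Z3a: (K2), and good sites after a kick
-/

set_option autoImplicit false
set_option linter.all false

namespace P365Z.K937

open P365L P365L.Stat P365T1 MeasureTheory Function Set P365L.Z0.H662
open P365O hiding kap
open _root_.Complex hiding eta
open scoped ENNReal ComplexConjugate

variable {ι : Type*} [Fintype ι] [DecidableEq ι] {A : Matrix ι ι ℝ} {E : ℝ} {e : ι → ℝ}
  {a : ι → ℝ}

/-! ### tuned sites -/

theorem Gr_re_im (hA : A.IsSymm) (he : ∀ x, 0 < e x) (v : ι → ℝ) (z : ι) :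
    (Gr A (WV E e v) z z).re = (v z - pc A E e v z) /
        ((v z - pc A E e v z) ^ 2 + pw A E e v z ^ 2) ∧
      mm A (WV E e v) z = pw A E e v z /
        ((v z - pc A E e v z) ^ 2 + pw A E e v z ^ 2) := by
  refine ⟨?_, mm_pt hA he v z⟩
  have h1 : Gr A (WV E e v) z z =
      (((v z - pc A E e v z : ℝ) : ℂ) - (pw A E e v z : ℂ) * I)⁻¹ := by
    rw [← Gr_inv hA he, inv_inv]
  rw [h1, Complex.inv_re, Complex.normSq_apply]
  simp
  congr 1
  ring

theorem re_le_of_tuned (hA : A.IsSymm) (he : ∀ x, 0 < e x) {v : ι → ℝ} {z : ι} {X : ℝ}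
    (h : |v z - pc A E e v z| ≤ X * pw A E e v z) :
    |(Gr A (WV E e v) z z).re| ≤ X * mm A (WV E e v) z := by
  have hp := pw_pos (E := E) hA he v z
  obtain ⟨h1, h2⟩ := Gr_re_im (E := E) hA he v z
  have hN : 0 < (v z - pc A E e v z) ^ 2 + pw A E e v z ^ 2 := by positivity
  rw [h1, h2, abs_div, abs_of_pos hN, ← mul_div_assoc]
  exact div_le_div_of_nonneg_right h hN.le

theorem tuned_of_re_le (hA : A.IsSymm) (he : ∀ x, 0 < e x) {v : ι → ℝ} {z : ι} {X : ℝ}
    (h : |(Gr A (WV E e v) z z).re| ≤ X * mm A (WV E e v) z) :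
    |v z - pc A E e v z| ≤ X * pw A E e v z := by
  have hp := pw_pos (E := E) hA he v z
  obtain ⟨h1, h2⟩ := Gr_re_im (E := E) hA he v z
  have hN : 0 < (v z - pc A E e v z) ^ 2 + pw A E e v z ^ 2 := by positivity
  rw [h1, h2, abs_div, abs_of_pos hN, ← mul_div_assoc] at h
  exact (div_le_div_iff_of_pos_right hN).1 h

theorem pw_le_of_big (hA : A.IsSymm) (he : ∀ x, 0 < e x) {v : ι → ℝ} {z : ι} {d0 : ℝ}
    (hd : 0 < d0) (h : d0 ≤ ‖Gr A (WV E e v) z z‖) : pw A E e v z ≤ 1 / d0 := by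
  have hp := pw_pos (E := E) hA he v z
  have h1 := Gr_inv (E := E) hA he v z
  have h2 : pw A E e v z ≤ ‖(Gr A (WV E e v) z z)⁻¹‖ := by
    have h3 : (Gr A (WV E e v) z z)⁻¹.im = -pw A E e v z := by
      rw [h1]
      simp
    calc pw A E e v z = |(Gr A (WV E e v) z z)⁻¹.im| := by rw [h3, abs_neg, abs_of_pos hp]
      _ ≤ _ := Complex.abs_im_le_norm _
  refine h2.trans ?_
  rw [norm_inv, one_div]
  exact inv_anti₀ hd h

/-- the kicked potential stays in the window `[-(a' + dl), a' + dl]` -/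
theorem uk_mem (hA : A.IsSymm) (he : ∀ x, 0 < e x) {v : ι → ℝ} {y : ι} {X d0 a' l0 dl : ℝ}
    (hd : 0 < d0) (hl : l0 ≤ dl * d0) (hl0 : 0 ≤ l0) (h : Gd A E e X d0 a' v y) {x : ℝ}
    (hx : x ∈ Jw (xk A E e v y) l0) : |uk A E e v y x| ≤ a' + dl := by
  have hp := pw_pos (E := E) hA he v y
  have h1 := pw_le_of_big hA he hd h.big
  have h2 : uk A E e v y x = v y + (x - xk A E e v y) * pw A E e v y := by
    have := uk_xk (E := E) hA he v y
    unfold uk at this ⊢
    linear_combination this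
  have h3 : |x - xk A E e v y| ≤ l0 := abs_le.2 ⟨by linarith [hx.1], by linarith [hx.2]⟩
  rw [h2]
  refine (abs_add_le _ _).trans (add_le_add h.flat ?_)
  rw [abs_mul, abs_of_pos hp]
  calc |x - xk A E e v y| * pw A E e v y ≤ l0 * (1 / d0) :=
        mul_le_mul h3 h1 hp.le hl0
    _ ≤ dl := by
        rw [mul_one_div, div_le_iff₀ hd]
        exact hl

/-! ### good sites after a kick -/

/-- factor of the parameters of the good sites -/
noncomputable def KX (X l0 : ℝ) : ℝ := (X + 3) * (X + 2) ^ 2 / cR X l0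

theorem KX_pos {X l0 : ℝ} (hX : 0 ≤ X) (hl : 0 < l0) : 0 < KX X l0 :=
  div_pos (by positivity) (cR_pos hX hl)

theorem im_mul_eta (q : ℂ) (x : ℝ) : (q * eta x).im = (q.re + q.im * x) / (1 + x ^ 2) := by
  rw [Complex.mul_im, eta_re, eta_im]
  ring

/-- values and coefficients -/
theorem coef_le {X x0 : ℝ} (h0 : |x0| ≤ X) {p q : ℂ}
    (ht : |(p + q * eta x0).re| ≤ X * (p + q * eta x0).im) :
    ‖p‖ + ‖q‖ ≤ (X + 3) * (|p.im + q.re| + |q.im| + |p.im|) := by
  have hX : 0 ≤ X := (abs_nonneg _).trans h0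
  set S : ℝ := |p.im + q.re| + |q.im| + |p.im| with hS
  have hq : ‖q‖ ≤ S := by
    refine (Complex.norm_le_abs_re_add_abs_im q).trans ?_
    have : |q.re| ≤ |p.im + q.re| + |p.im| := by
      have h1 : q.re = (p.im + q.re) - p.im := by ring
      rw [h1]
      exact (abs_sub _ _).trans (by simp)
    linarith
  have h3 : (0 : ℝ) < 1 + x0 ^ 2 := by positivity
  have hval : (p + q * eta x0).im ≤ S := by
    have e1 : (1 + x0 ^ 2) * (p + q * eta x0).im =
        (p.im + q.re) + q.im * x0 + p.im * x0 ^ 2 := by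
      rw [Complex.add_im, im_mul_eta]
      field_simp
      ring
    have h5 : |x0| ≤ 1 + x0 ^ 2 := by
      rw [← sq_abs x0]
      nlinarith [sq_nonneg (|x0| - 1), abs_nonneg x0]
    have h4 : (1 + x0 ^ 2) * (p + q * eta x0).im ≤ (1 + x0 ^ 2) * S := by
      rw [e1]
      have a1 := le_abs_self (p.im + q.re)
      have a2 : q.im * x0 ≤ |q.im| * |x0| := by rw [← abs_mul]; exact le_abs_self _
      have a3 : p.im * x0 ^ 2 ≤ |p.im| * x0 ^ 2 :=
        mul_le_mul_of_nonneg_right (le_abs_self _) (sq_nonneg _)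
      have a4 := mul_le_mul_of_nonneg_left h5 (abs_nonneg q.im)
      have a5 := mul_nonneg (sq_nonneg x0) (abs_nonneg (p.im + q.re))
      have a6 := abs_nonneg p.im
      rw [hS]
      nlinarith
    exact le_of_mul_le_mul_left h4 h3
  have hre : |p.re| ≤ X * S + S := by
    have h1 : p.re = (p + q * eta x0).re - (q * eta x0).re := by
      rw [Complex.add_re]
      ring
    have h2 : |(q * eta x0).re| ≤ ‖q‖ := by
      refine (Complex.abs_re_le_norm _).trans ?_
      rw [norm_mul]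
      have := mul_le_mul_of_nonneg_left (norm_eta_le x0) (norm_nonneg q)
      linarith
    rw [h1]
    refine (abs_sub _ _).trans ?_
    have h6 := mul_le_mul_of_nonneg_left hval hX
    linarith
  have hp : ‖p‖ ≤ X * S + S + S := by
    refine (Complex.norm_le_abs_re_add_abs_im p).trans ?_
    have : |p.im| ≤ S := by
      rw [hS]
      linarith [abs_nonneg (p.im + q.re), abs_nonneg q.im]
    linarith
  linarith

/-- **good sites stay good** off a set of measure `l0 / 8` of the window -/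
theorem good_kick (hA : A.IsSymm) (he : ∀ x, 0 < e x) {X d0 a' l0 : ℝ} (hl : 0 < l0)
    (hl1 : l0 ≤ 1) {v : ι → ℝ} {y z : ι} (hzy : z ≠ y)
    (hy : |v y - pc A E e v y| ≤ X * pw A E e v y) (hX : 0 ≤ X)
    (gz : Gd A E e X d0 a' v z) :
    volume {x : ℝ | x ∈ Jw (xk A E e v y) l0 ∧
      ¬ Gd A E e (KX X l0) (d0 / KX X l0) a' (Vk A E e v y x) z} ≤
        ENNReal.ofReal (l0 / 8) := by
  have h0 := abs_xk_le hA he hy
  set p : ℂ := ga A (WV E e v) y z z with hp
  set q : ℂ := gb A E e v y z z with hq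
  have hG : ∀ x, Gr A (WV E e (Vk A E e v y x)) z z = p + q * eta x :=
    fun x => Gr_kick hA he v y x z z
  have hc := cR_pos hX hl
  have hK := KX_pos hX hl
  have ht : |(p + q * eta (xk A E e v y)).re| ≤ X * (p + q * eta (xk A E e v y)).im := by
    have h1 := re_le_of_tuned hA he gz.tuned
    have h2 := hG (xk A E e v y)
    rw [Vk_xk hA he] at h2
    rw [← h2]
    exact h1
  have hcoef := coef_le h0 ht
  have hbig : d0 ≤ ‖p‖ + ‖q‖ := by
    have h2 := hG (xk A E e v y)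
    rw [Vk_xk hA he] at h2
    have h1 := gz.big
    rw [h2] at h1
    refine h1.trans ((norm_add_le _ _).trans ?_)
    rw [norm_mul]
    have := mul_le_mul_of_nonneg_left (norm_eta_le (xk A E e v y)) (norm_nonneg q)
    linarith
  set S : ℝ := |p.im + q.re| + |q.im| + |p.im| with hS
  refine (measure_mono fun x hx => ?_).trans (sublevel' hX hl hl1 h0
    ((p.im + q.re : ℝ) : ℂ) ((q.im : ℝ) : ℂ) ((p.im : ℝ) : ℂ))
  obtain ⟨hxJ, hx⟩ := hx
  refine ⟨hxJ, ?_⟩
  by_contra hcon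
  rw [not_lt] at hcon
  apply hx
  have hm : 0 < mm A (WV E e (Vk A E e v y x)) z := mm_pos hA (WV_im_neg he _) z
  have hm' : mm A (WV E e (Vk A E e v y x)) z = (p + q * eta x).im := by rw [mm, hG]
  have h3 : (0 : ℝ) < 1 + x ^ 2 := by positivity
  have e1 : (((p.im + q.re : ℝ) : ℂ) + ((q.im : ℝ) : ℂ) * x + ((p.im : ℝ) : ℂ) * (x : ℂ) ^ 2) =
      (((1 + x ^ 2) * mm A (WV E e (Vk A E e v y x)) z : ℝ) : ℂ) := by
    have e2 : (p.im + q.re) + q.im * x + p.im * x ^ 2 =
        (1 + x ^ 2) * mm A (WV E e (Vk A E e v y x)) z := by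
      rw [hm', Complex.add_im, im_mul_eta]
      field_simp
      ring
    rw [← e2]
    push_cast
    ring
  rw [e1, Complex.norm_real, Complex.norm_real, Complex.norm_real, Complex.norm_real,
    Real.norm_eq_abs, Real.norm_eq_abs, Real.norm_eq_abs, Real.norm_eq_abs,
    abs_of_pos (mul_pos h3 hm), ← hS] at hcon
  have hn := one_add_sq_le hX hl1 h0 hxJ
  have h4 : cR X l0 * S ≤ (X + 2) ^ 2 * mm A (WV E e (Vk A E e v y x)) z :=
    hcon.trans (mul_le_mul_of_nonneg_right hn hm.le)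
  have h5 : ‖p‖ + ‖q‖ ≤ KX X l0 * mm A (WV E e (Vk A E e v y x)) z := by
    refine hcoef.trans ?_
    have h6 : S ≤ (X + 2) ^ 2 * mm A (WV E e (Vk A E e v y x)) z / cR X l0 := by
      rw [le_div_iff₀ hc]
      linarith
    calc (X + 3) * S ≤ (X + 3) * ((X + 2) ^ 2 * mm A (WV E e (Vk A E e v y x)) z / cR X l0) :=
          mul_le_mul_of_nonneg_left h6 (by linarith)
      _ = _ := by
          unfold KX
          ring
  have hGn : ‖Gr A (WV E e (Vk A E e v y x)) z z‖ ≤ ‖p‖ + ‖q‖ := by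
    rw [hG]
    refine (norm_add_le _ _).trans ?_
    rw [norm_mul]
    have := mul_le_mul_of_nonneg_left (norm_eta_le x) (norm_nonneg q)
    linarith
  refine ⟨?_, ?_, ?_⟩
  · refine tuned_of_re_le hA he ?_
    exact (Complex.abs_re_le_norm _).trans (hGn.trans h5)
  · rw [div_le_iff₀ hK, mul_comm]
    refine (hbig.trans h5).trans (mul_le_mul_of_nonneg_left ?_ hK.le)
    exact (le_abs_self _).trans (Complex.abs_im_le_norm _)
  · rw [Vk, update_of_ne hzy]
    exact gz.flat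

/-! ### (K2) -/

theorem norm_gb (hA : A.IsSymm) (he : ∀ x, 0 < e x) (v : ι → ℝ) (y z w : ι) :
    ‖gb A E e v y z w‖ ^ 2 = KK A (WV E e v) z y * KK A (WV E e v) w y /
      mm A (WV E e v) y ^ 2 := by
  have hp := pw_pos (E := E) hA he v y
  have hm := mm_pos hA (WV_im_neg (E := E) he v) y
  have h1 : mm A (WV E e v) y = pw A E e v y * ‖Gr A (WV E e v) y y‖ ^ 2 := by
    have h2 := im_eq_bet hm
    have h3 : bet (Gr A (WV E e v) y y) = pw A E e v y := by
      rw [bet, Gr_inv hA he]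
      simp
    rw [h3] at h2
    exact h2
  have hg : ‖Gr A (WV E e v) y y‖ ≠ 0 := by
    intro h0
    rw [h0] at h1
    simp at h1
    linarith
  rw [gb, norm_mul, norm_div, norm_pow, norm_inv, norm_mul, Complex.norm_real, Real.norm_eq_abs,
    abs_of_pos hp, h1, KK, KK, Gr_symm hA w y]
  field_simp

/-- constant of (K2) -/
noncomputable def CK2 (X l0 : ℝ) : ℝ := 2 / (c1 X l0 ^ 2 * c2 X l0 ^ 2)

theorem CK2_pos {X l0 : ℝ} (hX : 0 ≤ X) (hl : 0 < l0) : 0 < CK2 X l0 := by
  have h1 := c1_pos hX hl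
  have h2 := c2_pos hX hl
  unfold CK2
  positivity

theorem c1_le_one {X l0 : ℝ} (hX : 0 ≤ X) (hl : 0 < l0) (hl1 : l0 ≤ 1) : c1 X l0 ≤ 1 := by
  have h1 := cR_le_one hX hl hl1
  unfold c1
  rw [div_le_one (by linarith)]
  linarith

/-- the product of the two `kap` is controlled at the kicked configurations where `G_zw` is not
small -/
theorem kap_kick (hA : A.IsSymm) (he : ∀ x, 0 < e x) {X l0 : ℝ} (hX : 0 ≤ X) (hl : 0 < l0)
    (hl1 : l0 ≤ 1) (v : ι → ℝ) (y z w : ι) {x : ℝ}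
    (h : c1 X l0 * (‖ga A (WV E e v) y z w‖ + ‖gb A E e v y z w‖) ≤
      ‖Gr A (WV E e (Vk A E e v y x)) z w‖) :
    kap A (WV E e v) z y * kap A (WV E e v) y w ≤
      2 / c1 X l0 ^ 2 * kap A (WV E e (Vk A E e v y x)) z w := by
  have hW := WV_im_neg (E := E) he v
  have hWn := WV_im_neg (E := E) he (Vk A E e v y x)
  have hc := c1_pos hX hl
  have hc1 := c1_le_one hX hl hl1
  have my := mm_pos hA hW y
  have mz := mm_pos hA hW z
  have mw := mm_pos hA hW w
  have mz' := mm_pos hA hWn z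
  have mw' := mm_pos hA hWn w
  have gz := mm_upd_le hA hW y (uk A E e v y x - v y) z
  have gw := mm_upd_le hA hW y (uk A E e v y x - v y) w
  rw [← WV_Vk] at gz gw
  have hb := norm_gb (E := E) hA he v y z w
  set kz := KK A (WV E e v) z y with hkz
  set kw := KK A (WV E e v) w y with hkw
  have kz0 : 0 ≤ kz := KK_nonneg z y
  have kw0 : 0 ≤ kw := KK_nonneg w y
  set m := mm A (WV E e v) y with hm
  set K' := KK A (WV E e (Vk A E e v y x)) z w with hK'
  have K'0 : 0 ≤ K' := KK_nonneg z w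
  set D := (mm A (WV E e v) z + kz / m) * (mm A (WV E e v) w + kw / m) with hD
  have hDpos : 0 < D := by positivity
  have h_mm : mm A (WV E e (Vk A E e v y x)) z * mm A (WV E e (Vk A E e v y x)) w ≤ D :=
    mul_le_mul gz gw mw'.le (by positivity)
  set Y := kz * kw / m ^ 2 with hY
  have hY0 : 0 ≤ Y := by positivity
  have hYD : Y ≤ D := by
    have : Y = (kz / m) * (kw / m) := by rw [hY]; field_simp
    rw [this, hD]
    have a1 : 0 ≤ kz / m := by positivity
    have a2 : 0 ≤ kw / m := by positivity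
    nlinarith
  have hK'Y : c1 X l0 ^ 2 * Y ≤ K' := by
    rw [hK', KK, ← hb, ← mul_pow]
    refine pow_le_pow_left₀ (by positivity) (le_trans ?_ h) 2
    exact mul_le_mul_of_nonneg_left (by linarith [norm_nonneg (ga A (WV E e v) y z w)]) hc.le
  -- the product of the kappas
  have hkk : kap A (WV E e v) z y * kap A (WV E e v) y w = Y / D := by
    rw [kap, kap, ← hkz, KK_symm hA y w, ← hkw, ← hm, hY, hD]
    have b3 : mm A (WV E e v) z + kz / m = (mm A (WV E e v) z * m + kz) / m := by field_simp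
    have b4 : mm A (WV E e v) w + kw / m = (m * mm A (WV E e v) w + kw) / m := by field_simp
    rw [b3, b4]
    field_simp
  rw [hkk, kap, ← hK']
  have hden : 0 < mm A (WV E e (Vk A E e v y x)) z * mm A (WV E e (Vk A E e v y x)) w + K' := by
    positivity
  have e1 : 2 / c1 X l0 ^ 2 * (K' / (mm A (WV E e (Vk A E e v y x)) z *
      mm A (WV E e (Vk A E e v y x)) w + K')) = (2 * K') / (c1 X l0 ^ 2 *
      (mm A (WV E e (Vk A E e v y x)) z * mm A (WV E e (Vk A E e v y x)) w + K')) := by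
    field_simp
  rw [e1, div_le_div_iff₀ hDpos (by positivity)]
  set M := mm A (WV E e (Vk A E e v y x)) z * mm A (WV E e (Vk A E e v y x)) w with hM
  have hM0 : 0 ≤ M := by positivity
  have c1' : c1 X l0 ^ 2 * Y * M ≤ K' * D := mul_le_mul hK'Y h_mm hM0 K'0
  have c2' : c1 X l0 ^ 2 * Y * K' ≤ D * K' := by
    refine mul_le_mul_of_nonneg_right ?_ K'0
    have : c1 X l0 ^ 2 ≤ 1 := pow_le_one₀ hc.le hc1
    nlinarith
  nlinarith

/-- **(K2)**: one kick at a good site `y` creates `kap_zw` out of `kap_zy kap_yw`; off a set of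
measure `l0 / 2` of the window (length `2 l0`) -/
theorem K2 (hA : A.IsSymm) (he : ∀ x, 0 < e x) {X d0 a' l0 : ℝ} (hX : 0 ≤ X) (hl : 0 < l0)
    (hl1 : l0 ≤ 1) {v : ι → ℝ} {y z w : ι} (hzy : z ≠ y) (hwy : w ≠ y)
    (gy : Gd A E e X d0 a' v y) (gz : Gd A E e X d0 a' v z) (gw : Gd A E e X d0 a' v w) :
    volume {x : ℝ | x ∈ Jw (xk A E e v y) l0 ∧
      ¬ (kap A (WV E e v) z y * kap A (WV E e v) y w * ‖Tm A (WV E e v) a z w‖ ^ 2 ≤
          CK2 X l0 * (kap A (WV E e (Vk A E e v y x)) z w *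
            ‖Tm A (WV E e (Vk A E e v y x)) a z w‖ ^ 2) ∧
        Gd A E e (KX X l0) (d0 / KX X l0) a' (Vk A E e v y x) z ∧
        Gd A E e (KX X l0) (d0 / KX X l0) a' (Vk A E e v y x) w)} ≤
      ENNReal.ofReal (l0 / 2) := by
  have h0 := abs_xk_le hA he gy.tuned
  have hc1 := c1_pos hX hl
  have hc2 := c2_pos hX hl
  set B1 : Set ℝ := {x : ℝ | x ∈ Jw (xk A E e v y) l0 ∧
    ‖ga A (WV E e v) y z w + gb A E e v y z w * eta x‖ <
      c1 X l0 * (‖ga A (WV E e v) y z w‖ + ‖gb A E e v y z w‖)} with hB1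
  set B2 : Set ℝ := {x : ℝ | x ∈ Jw (xk A E e v y) l0 ∧
    ‖Ta A (WV E e v) a y z w + Tx A E e a v y z w * eta x +
      Ty A E e a v y z w * conj (eta x)‖ <
      c2 X l0 * ‖Ta A (WV E e v) a y z w + Tx A E e a v y z w * eta (xk A E e v y) +
        Ty A E e a v y z w * conj (eta (xk A E e v y))‖} with hB2
  set B3 : Set ℝ := {x : ℝ | x ∈ Jw (xk A E e v y) l0 ∧
    ¬ Gd A E e (KX X l0) (d0 / KX X l0) a' (Vk A E e v y x) z} with hB3
  set B4 : Set ℝ := {x : ℝ | x ∈ Jw (xk A E e v y) l0 ∧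
    ¬ Gd A E e (KX X l0) (d0 / KX X l0) a' (Vk A E e v y x) w} with hB4
  have v1 : volume B1 ≤ ENNReal.ofReal (l0 / 8) := sub_aff hX hl hl1 h0 _ _
  have v2 : volume B2 ≤ ENNReal.ofReal (l0 / 8) := sub_quad hX hl hl1 h0 _ _ _
  have v3 : volume B3 ≤ ENNReal.ofReal (l0 / 8) := good_kick hA he hl hl1 hzy gy.tuned hX gz
  have v4 : volume B4 ≤ ENNReal.ofReal (l0 / 8) := good_kick hA he hl hl1 hwy gy.tuned hX gw
  have hsub : {x : ℝ | x ∈ Jw (xk A E e v y) l0 ∧
      ¬ (kap A (WV E e v) z y * kap A (WV E e v) y w * ‖Tm A (WV E e v) a z w‖ ^ 2 ≤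
          CK2 X l0 * (kap A (WV E e (Vk A E e v y x)) z w *
            ‖Tm A (WV E e (Vk A E e v y x)) a z w‖ ^ 2) ∧
        Gd A E e (KX X l0) (d0 / KX X l0) a' (Vk A E e v y x) z ∧
        Gd A E e (KX X l0) (d0 / KX X l0) a' (Vk A E e v y x) w)} ⊆
      (B1 ∪ B2) ∪ (B3 ∪ B4) := by
    rintro x ⟨hxJ, hx⟩
    by_contra hcon
    simp only [mem_union, not_or] at hcon
    obtain ⟨⟨n1, n2⟩, n3, n4⟩ := hcon
    apply hx
    have g3 : Gd A E e (KX X l0) (d0 / KX X l0) a' (Vk A E e v y x) z := by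
      by_contra h
      exact n3 ⟨hxJ, h⟩
    have g4 : Gd A E e (KX X l0) (d0 / KX X l0) a' (Vk A E e v y x) w := by
      by_contra h
      exact n4 ⟨hxJ, h⟩
    refine ⟨?_, g3, g4⟩
    have g1 : c1 X l0 * (‖ga A (WV E e v) y z w‖ + ‖gb A E e v y z w‖) ≤
        ‖Gr A (WV E e (Vk A E e v y x)) z w‖ := by
      rw [Gr_kick hA he]
      by_contra h
      exact n1 ⟨hxJ, not_le.1 h⟩
    have g2 : c2 X l0 * ‖Tm A (WV E e v) a z w‖ ≤
        ‖Tm A (WV E e (Vk A E e v y x)) a z w‖ := by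
      have e1 := Tm_kick (a := a) (E := E) hA he v y (xk A E e v y) z w
      rw [Vk_xk hA he] at e1
      rw [Tm_kick hA he, e1]
      by_contra h
      exact n2 ⟨hxJ, not_le.1 h⟩
    have k1 := kap_kick hA he hX hl hl1 v y z w g1
    have hT : ‖Tm A (WV E e v) a z w‖ ^ 2 ≤
        1 / c2 X l0 ^ 2 * ‖Tm A (WV E e (Vk A E e v y x)) a z w‖ ^ 2 := by
      have := pow_le_pow_left₀ (by positivity) g2 2
      rw [mul_pow] at this
      rw [one_div, inv_mul_eq_div, le_div_iff₀ (by positivity)]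
      linarith
    have hk0 := kap_nonneg hA (WV_im_neg (E := E) he (Vk A E e v y x)) z w
    calc kap A (WV E e v) z y * kap A (WV E e v) y w * ‖Tm A (WV E e v) a z w‖ ^ 2
        ≤ (2 / c1 X l0 ^ 2 * kap A (WV E e (Vk A E e v y x)) z w) *
          (1 / c2 X l0 ^ 2 * ‖Tm A (WV E e (Vk A E e v y x)) a z w‖ ^ 2) :=
          mul_le_mul k1 hT (sq_nonneg _) (by positivity)
      _ = _ := by
          unfold CK2
          field_simp
  refine (measure_mono hsub).trans ((measure_union_le _ _).trans ?_)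
  refine (add_le_add ((measure_union_le _ _).trans (add_le_add v1 v2))
    ((measure_union_le _ _).trans (add_le_add v3 v4))).trans (le_of_eq ?_)
  rw [← ENNReal.ofReal_add (by positivity) (by positivity),
    ← ENNReal.ofReal_add (by positivity) (by positivity)]
  congr 1
  ring

end P365Z.K937
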