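import Vale.Agent.P365.Z0.Bad
import Vale.Agent.P365.Z0.H662.Sub
import Vale.Agent.P365.Stat.T0
import Vale.Agent.P365.Stat.T2a

/-!
# P365 Z0, Z3a: kicks at a good site `y`, window `J = [x0 - l0, x0 + l0]` in the resonance variable

`x = (u - pc) / pw`; `G(x) = a + b η(x)`, `T(x) = T₀ + X η(x) + Y conj η(x)`, `η(x) = 1/(x - i)`.
-/

set_option autoImplicit false
set_option linter.all false

namespace P365Z.K937

open P365L P365L.Stat P365O P365T1 MeasureTheory Function Set P365L.Z0.H662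
open _root_.Complex hiding eta
open scoped ENNReal ComplexConjugate

variable {ι : Type*} [Fintype ι] [DecidableEq ι] {A : Matrix ι ι ℝ} {E : ℝ} {e : ι → ℝ}
  {a : ι → ℝ}

/-- resonance variable of the actual potential -/
noncomputable def xk (A : Matrix ι ι ℝ) (E : ℝ) (e v : ι → ℝ) (y : ι) : ℝ :=
  (v y - pc A E e v y) / pw A E e v y

/-- the kicked potential -/
noncomputable def uk (A : Matrix ι ι ℝ) (E : ℝ) (e v : ι → ℝ) (y : ι) (x : ℝ) : ℝ :=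
  pc A E e v y + x * pw A E e v y

/-- the kicked configuration -/
noncomputable def Vk (A : Matrix ι ι ℝ) (E : ℝ) (e v : ι → ℝ) (y : ι) (x : ℝ) : ι → ℝ :=
  update v y (uk A E e v y x)

theorem uk_xk (hA : A.IsSymm) (he : ∀ x, 0 < e x) (v : ι → ℝ) (y : ι) :
    uk A E e v y (xk A E e v y) = v y := by
  have h := pw_pos (E := E) hA he v y
  unfold uk xk
  field_simp
  ring

theorem Vk_xk (hA : A.IsSymm) (he : ∀ x, 0 < e x) (v : ι → ℝ) (y : ι) :
    Vk A E e v y (xk A E e v y) = v := by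
  rw [Vk, uk_xk hA he, update_eq_self]

theorem abs_xk_le (hA : A.IsSymm) (he : ∀ x, 0 < e x) {v : ι → ℝ} {y : ι} {X : ℝ}
    (h : |v y - pc A E e v y| ≤ X * pw A E e v y) : |xk A E e v y| ≤ X := by
  have hp := pw_pos (E := E) hA he v y
  rw [xk, abs_div, abs_of_pos hp, div_le_iff₀ hp]
  exact h

theorem WV_Vk (v : ι → ℝ) (y : ι) (x : ℝ) :
    WV E e (Vk A E e v y x) = update (WV E e v) y
      (WV E e v y + ((uk A E e v y x - v y : ℝ) : ℂ)) := by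
  funext z
  by_cases hz : z = y
  · subst hz
    rw [update_self]
    simp [WV, Vk]
    ring
  · rw [update_of_ne hz]
    simp [WV, Vk, update_of_ne hz]

theorem Gr_inv (hA : A.IsSymm) (he : ∀ x, 0 < e x) (v : ι → ℝ) (y : ι) :
    (Gr A (WV E e v) y y)⁻¹ = ((v y - pc A E e v y : ℝ) : ℂ) - (pw A E e v y : ℂ) * I := by
  rw [Gr_self_eq hA (WV_im_neg he v), inv_inv]
  apply Complex.ext
  · simp [WV, pc, pw]
    ring
  · simp [WV, pc, pw]
    ring

theorem ss_kick (hA : A.IsSymm) (he : ∀ x, 0 < e x) (v : ι → ℝ) (y : ι) (x : ℝ) :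
    ss (Gr A (WV E e v) y y) (uk A E e v y x - v y) = (pw A E e v y : ℂ) * ((x : ℂ) - I) := by
  rw [ss, Gr_inv hA he, uk]
  push_cast
  ring

/-- `1/ss = η(x)/pw` -/
theorem inv_ss_kick (hA : A.IsSymm) (he : ∀ x, 0 < e x) (v : ι → ℝ) (y : ι) (x : ℝ) :
    (ss (Gr A (WV E e v) y y) (uk A E e v y x - v y))⁻¹ = eta x / (pw A E e v y : ℂ) := by
  rw [ss_kick hA he, mul_inv, eta]
  ring

/-- the amplitude of `θ` -/
theorem th_kick (hA : A.IsSymm) (he : ∀ x, 0 < e x) (v : ι → ℝ) (y : ι) (x : ℝ) :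
    th (Gr A (WV E e v) y y) ((uk A E e v y x - v y : ℝ) : ℂ) =
      (Gr A (WV E e v) y y)⁻¹ -
        (Gr A (WV E e v) y y)⁻¹ ^ 2 / (pw A E e v y : ℂ) * eta x := by
  rw [th_eq (mm_pos hA (WV_im_neg he v) y), div_eq_mul_inv _ (ss _ _), inv_ss_kick hA he]
  ring

/-- constant part of `G_zw` on the line of `y` -/
noncomputable def ga (A : Matrix ι ι ℝ) (W : ι → ℂ) (y z w : ι) : ℂ :=
  Gr A W z w - (Gr A W y y)⁻¹ * (Gr A W z y * Gr A W y w)

/-- resonant part of `G_zw` on the line of `y` -/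
noncomputable def gb (A : Matrix ι ι ℝ) (E : ℝ) (e v : ι → ℝ) (y z w : ι) : ℂ :=
  (Gr A (WV E e v) y y)⁻¹ ^ 2 / (pw A E e v y : ℂ) *
    (Gr A (WV E e v) z y * Gr A (WV E e v) y w)

theorem Gr_kick (hA : A.IsSymm) (he : ∀ x, 0 < e x) (v : ι → ℝ) (y : ι) (x : ℝ) (z w : ι) :
    Gr A (WV E e (Vk A E e v y x)) z w =
      ga A (WV E e v) y z w + gb A E e v y z w * eta x := by
  have ht : (WV E e v y + ((uk A E e v y x - v y : ℝ) : ℂ)).im < 0 := by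
    rw [Complex.add_im, Complex.ofReal_im, add_zero]
    exact WV_im_neg he v y
  rw [WV_Vk, Gr_upd hA (WV_im_neg he v) y _ ht, th_kick hA he, ga, gb]
  ring

/-- the three coefficients of `T` on the line of `y` -/
noncomputable def Ta (A : Matrix ι ι ℝ) (W : ι → ℂ) (a : ι → ℝ) (y z w : ι) : ℂ :=
  Tm A W a z w - (Gr A W y y)⁻¹ * (Qm A W a z y * Gr A W y w) -
    conj (Gr A W y y)⁻¹ * (conj (Gr A W z y) * conj (Qm A W a w y))

noncomputable def Tx (A : Matrix ι ι ℝ) (E : ℝ) (e : ι → ℝ) (a : ι → ℝ) (v : ι → ℝ)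
    (y z w : ι) : ℂ :=
  (Gr A (WV E e v) y y)⁻¹ ^ 2 / (pw A E e v y : ℂ) *
    (Qm A (WV E e v) a z y * Gr A (WV E e v) y w)

noncomputable def Ty (A : Matrix ι ι ℝ) (E : ℝ) (e : ι → ℝ) (a : ι → ℝ) (v : ι → ℝ)
    (y z w : ι) : ℂ :=
  conj ((Gr A (WV E e v) y y)⁻¹ ^ 2 / (pw A E e v y : ℂ)) *
    (conj (Gr A (WV E e v) z y) * conj (Qm A (WV E e v) a w y))

theorem Tm_kick (hA : A.IsSymm) (he : ∀ x, 0 < e x) (v : ι → ℝ) (y : ι) (x : ℝ) (z w : ι) :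
    Tm A (WV E e (Vk A E e v y x)) a z w =
      Ta A (WV E e v) a y z w + Tx A E e a v y z w * eta x +
        Ty A E e a v y z w * conj (eta x) := by
  rw [WV_Vk, Tm_upd_real hA (WV_im_neg he v) y, th_kick hA he, Ta, Tx, Ty]
  simp only [map_sub, map_mul]
  ring

/-! ### sublevel lemmas on the window -/

/-- the window -/
def Jw (x0 l0 : ℝ) : Set ℝ := Icc (x0 - l0) (x0 + l0)

theorem one_add_sq_le {X x0 l0 x : ℝ} (hX : 0 ≤ X) (hl1 : l0 ≤ 1) (h0 : |x0| ≤ X)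
    (hx : x ∈ Jw x0 l0) : 1 + x ^ 2 ≤ (X + 2) ^ 2 := by
  have h1 := abs_le.1 h0
  have h2 : |x| ≤ X + 1 := abs_le.2 ⟨by linarith [hx.1], by linarith [hx.2]⟩
  have h3 : x ^ 2 ≤ (X + 1) ^ 2 := by
    rw [← sq_abs x]
    exact pow_le_pow_left₀ (abs_nonneg _) h2 2
  nlinarith

theorem norm_sub_I_le {X x0 l0 x : ℝ} (hX : 0 ≤ X) (hl1 : l0 ≤ 1) (h0 : |x0| ≤ X)
    (hx : x ∈ Jw x0 l0) : ‖(x : ℂ) - I‖ ≤ X + 2 := by
  have h1 := one_add_sq_le hX hl1 h0 hx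
  have h2 : ‖(x : ℂ) - I‖ ^ 2 = 1 + x ^ 2 := by
    rw [← Complex.normSq_eq_norm_sq, Complex.normSq_apply]
    simp
    ring
  exact le_of_sq_le_sq (by rw [h2]; exact h1) (by linarith)

theorem sublevel' {X l0 x0 : ℝ} (hX : 0 ≤ X) (hl : 0 < l0) (hl1 : l0 ≤ 1) (h0 : |x0| ≤ X)
    (r0 r1 r2 : ℂ) :
    volume {x : ℝ | x ∈ Jw x0 l0 ∧
      ‖r0 + r1 * x + r2 * x ^ 2‖ < cR X l0 * (‖r0‖ + ‖r1‖ + ‖r2‖)} ≤ ENNReal.ofReal (l0 / 8) := by
  have h1 := abs_le.1 h0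
  exact sublevel hX hl hl1 (by linarith) (by linarith) r0 r1 r2

/-- constant for affine functions of `η` -/
noncomputable def c1 (X l0 : ℝ) : ℝ := cR X l0 / (2 * (X + 2))

/-- constant for the quadratic ones -/
noncomputable def c2 (X l0 : ℝ) : ℝ := cR X l0 / (X + 2) ^ 2

theorem c1_pos {X l0 : ℝ} (hX : 0 ≤ X) (hl : 0 < l0) : 0 < c1 X l0 :=
  div_pos (cR_pos hX hl) (by linarith)

theorem c2_pos {X l0 : ℝ} (hX : 0 ≤ X) (hl : 0 < l0) : 0 < c2 X l0 :=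
  div_pos (cR_pos hX hl) (by positivity)

theorem cR_le_one {X l0 : ℝ} (hX : 0 ≤ X) (hl : 0 < l0) (hl1 : l0 ≤ 1) : cR X l0 ≤ 1 := by
  unfold cR
  rw [div_le_one (by positivity)]
  nlinarith

/-- affine functions of `η` -/
theorem sub_aff {X l0 x0 : ℝ} (hX : 0 ≤ X) (hl : 0 < l0) (hl1 : l0 ≤ 1) (h0 : |x0| ≤ X)
    (p q : ℂ) :
    volume {x : ℝ | x ∈ Jw x0 l0 ∧ ‖p + q * eta x‖ < c1 X l0 * (‖p‖ + ‖q‖)} ≤
      ENNReal.ofReal (l0 / 8) := by
  refine (measure_mono fun x hx => ?_).trans (sublevel' hX hl hl1 h0 (q - I * p) p 0)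
  obtain ⟨hxJ, hx⟩ := hx
  refine ⟨hxJ, ?_⟩
  have hn := norm_sub_I_le hX hl1 h0 hxJ
  have e1 : (q - I * p) + p * x + 0 * (x : ℂ) ^ 2 = ((x : ℂ) - I) * (p + q * eta x) := by
    have h2 : ((x : ℂ) - I) * eta x = 1 := by
      rw [eta, mul_one_div, div_self (sub_I_ne x)]
    linear_combination (-q) * h2
  have h3 : ‖p‖ + ‖q‖ ≤ 2 * (‖q - I * p‖ + ‖p‖) := by
    have h4 : ‖q‖ ≤ ‖q - I * p‖ + ‖p‖ := by
      calc ‖q‖ = ‖(q - I * p) + I * p‖ := by rw [sub_add_cancel]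
        _ ≤ ‖q - I * p‖ + ‖I * p‖ := norm_add_le _ _
        _ = _ := by rw [norm_mul, Complex.norm_I, one_mul]
    linarith [norm_nonneg (q - I * p)]
  have hc := cR_pos hX hl
  rw [e1, norm_mul, norm_zero, add_zero]
  have h5 : ‖(x : ℂ) - I‖ * ‖p + q * eta x‖ ≤ (X + 2) * ‖p + q * eta x‖ :=
    mul_le_mul_of_nonneg_right hn (norm_nonneg _)
  have h6 : (X + 2) * ‖p + q * eta x‖ < (X + 2) * (c1 X l0 * (‖p‖ + ‖q‖)) :=
    mul_lt_mul_of_pos_left hx (by linarith)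
  have h7 : (X + 2) * (c1 X l0 * (‖p‖ + ‖q‖)) = cR X l0 / 2 * (‖p‖ + ‖q‖) := by
    unfold c1
    field_simp
  have h8 : cR X l0 / 2 * (‖p‖ + ‖q‖) ≤ cR X l0 * (‖q - I * p‖ + ‖p‖) := by
    have := mul_le_mul_of_nonneg_left h3 hc.le
    linarith
  linarith

/-- quadratic ones: value at any point of the window -/
theorem sub_quad {X l0 x0 : ℝ} (hX : 0 ≤ X) (hl : 0 < l0) (hl1 : l0 ≤ 1) (h0 : |x0| ≤ X)
    (t p q : ℂ) :
    volume {x : ℝ | x ∈ Jw x0 l0 ∧ ‖t + p * eta x + q * conj (eta x)‖ <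
      c2 X l0 * ‖t + p * eta x0 + q * conj (eta x0)‖} ≤ ENNReal.ofReal (l0 / 8) := by
  refine (measure_mono fun x hx => ?_).trans
    (sublevel' hX hl hl1 h0 (t + I * p - I * q) (p + q) t)
  obtain ⟨hxJ, hx⟩ := hx
  refine ⟨hxJ, ?_⟩
  have hn := one_add_sq_le hX hl1 h0 hxJ
  have e1 : ∀ s : ℝ, (t + I * p - I * q) + (p + q) * s + t * (s : ℂ) ^ 2 =
      ((1 + s ^ 2 : ℝ) : ℂ) * (t + p * eta s + q * conj (eta s)) := by
    intro s
    have h2 : ((1 + s ^ 2 : ℝ) : ℂ) = ((s : ℂ) - I) * ((s : ℂ) + I) := by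
      push_cast
      linear_combination Complex.I_mul_I
    have h3 : ((s : ℂ) - I) * eta s = 1 := by
      rw [eta, mul_one_div, div_self (sub_I_ne s)]
    have h4 : ((s : ℂ) + I) * conj (eta s) = 1 := by
      have := congrArg conj h3
      simp only [map_mul, map_sub, Complex.conj_ofReal, Complex.conj_I, map_one,
        sub_neg_eq_add] at this
      exact this
    rw [h2]
    linear_combination (-(p * ((s : ℂ) + I))) * h3 - q * ((s : ℂ) - I) * h4 +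
      t * Complex.I_mul_I
  set S : ℝ := ‖t + I * p - I * q‖ + ‖p + q‖ + ‖t‖ with hS
  have hS0 : 0 ≤ S := by positivity
  have hval : ‖t + p * eta x0 + q * conj (eta x0)‖ ≤ S := by
    have h2 := e1 x0
    have h3 : (0 : ℝ) < 1 + x0 ^ 2 := by positivity
    have h4 : (1 + x0 ^ 2) * ‖t + p * eta x0 + q * conj (eta x0)‖ ≤ (1 + x0 ^ 2) * S := by
      calc (1 + x0 ^ 2) * ‖t + p * eta x0 + q * conj (eta x0)‖
          = ‖((1 + x0 ^ 2 : ℝ) : ℂ) * (t + p * eta x0 + q * conj (eta x0))‖ := by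
            rw [norm_mul, Complex.norm_real, Real.norm_eq_abs, abs_of_pos h3]
        _ = ‖(t + I * p - I * q) + (p + q) * x0 + t * (x0 : ℂ) ^ 2‖ := by rw [← h2]
        _ ≤ ‖t + I * p - I * q‖ + ‖p + q‖ * |x0| + ‖t‖ * x0 ^ 2 := by
            refine (norm_add₃_le).trans ?_
            rw [norm_mul, norm_mul, norm_pow, Complex.norm_real, Real.norm_eq_abs, sq_abs]
        _ ≤ (1 + x0 ^ 2) * S := by
            have h5 : |x0| ≤ 1 + x0 ^ 2 := by
              rw [← sq_abs x0]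
              nlinarith [sq_nonneg (|x0| - 1), abs_nonneg x0]
            have h6 := mul_le_mul_of_nonneg_left h5 (norm_nonneg (p + q))
            have h7 := mul_nonneg (sq_nonneg x0) (norm_nonneg (t + I * p - I * q))
            rw [hS]
            nlinarith [norm_nonneg t, norm_nonneg (p + q), norm_nonneg (t + I * p - I * q)]
    exact le_of_mul_le_mul_left h4 h3
  have hc := cR_pos hX hl
  have h3 : (0 : ℝ) < 1 + x ^ 2 := by positivity
  rw [e1 x, norm_mul, Complex.norm_real, Real.norm_eq_abs, abs_of_pos h3]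
  have h5 : (1 + x ^ 2) * ‖t + p * eta x + q * conj (eta x)‖ ≤
      (X + 2) ^ 2 * ‖t + p * eta x + q * conj (eta x)‖ :=
    mul_le_mul_of_nonneg_right hn (norm_nonneg _)
  have h6 : (X + 2) ^ 2 * ‖t + p * eta x + q * conj (eta x)‖ <
      (X + 2) ^ 2 * (c2 X l0 * ‖t + p * eta x0 + q * conj (eta x0)‖) :=
    mul_lt_mul_of_pos_left hx (by positivity)
  have h7 : (X + 2) ^ 2 * (c2 X l0 * ‖t + p * eta x0 + q * conj (eta x0)‖) =
      cR X l0 * ‖t + p * eta x0 + q * conj (eta x0)‖ := by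
    unfold c2
    field_simp
  have h8 := mul_le_mul_of_nonneg_left hval hc.le
  linarith

end P365Z.K937
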